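import Crest.Agent.R1.ST1
import Crest.Agent.Lib.PNT

-- ▼ part R1/ST2
section

/-!
R1, structure theorem (ST), part 2: stratification by the multiplicity in the `y` direction.
-/

namespace Crest.Agent.R1.ST

open Finset Polynomial

/-- the bivariate polynomial (outer variable `y`, inner variable `x`). -/
noncomputable def bip {D : ℕ} (c : Fin D × Fin D → ℤ) : ℤ[X][X] :=
  ∑ ij : Fin D × Fin D, C (C (c ij) * X ^ (ij.1 : ℕ)) * X ^ (ij.2 : ℕ)

/-- specialisation `x = e`. -/
noncomputable def spec (e : ℤ) (f : ℤ[X][X]) : ℤ[X] := f.map (evalRingHom e)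

lemma spec_bip {D : ℕ} (c : Fin D × Fin D → ℤ) (e : ℤ) :
    spec e (bip c) = ∑ ij : Fin D × Fin D, C (c ij * e ^ (ij.1 : ℕ)) * X ^ (ij.2 : ℕ) := by
  unfold spec bip
  rw [Polynomial.map_sum]
  refine Finset.sum_congr rfl (fun ij _ => ?_)
  simp [Polynomial.map_mul]

lemma spec_bip_eval {D : ℕ} (c : Fin D × Fin D → ℤ) (e y : ℤ) :
    (spec e (bip c)).eval y = val c e y := by
  rw [spec_bip, eval_finsetSum]
  unfold val
  refine Finset.sum_congr rfl (fun ij _ => ?_)
  simp

lemma bip_natDegree_lt {D : ℕ} (hD : 0 < D) (c : Fin D × Fin D → ℤ) :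
    (bip c).natDegree < D := by
  have : (bip c).natDegree ≤ D - 1 := by
    unfold bip
    refine natDegree_sum_le_of_forall_le _ _ (fun ij _ => ?_)
    refine (natDegree_C_mul_X_pow_le _ _).trans ?_
    have := ij.2.2
    omega
  omega

lemma spec_bip_coeff {D : ℕ} (c : Fin D × Fin D → ℤ) (e : ℤ) (k : ℕ) :
    (spec e (bip c)).coeff k =
      if h : k < D then ∑ i : Fin D, c (i, ⟨k, h⟩) * e ^ (i : ℕ) else 0 := by
  rw [spec_bip, finsetSum_coeff]
  simp only [coeff_C_mul, coeff_X_pow]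
  rw [Fintype.sum_prod_type]
  split_ifs with h
  · refine Finset.sum_congr rfl (fun i _ => ?_)
    rw [Finset.sum_eq_single (⟨k, h⟩ : Fin D)]
    · simp
    · intro j _ hj
      have : ¬ k = (j : ℕ) := fun hk => hj (Fin.ext hk.symm)
      simp [this]
    · simp
  · refine Finset.sum_eq_zero (fun i _ => Finset.sum_eq_zero (fun j _ => ?_))
    have : ¬ k = (j : ℕ) := fun hk => h (hk ▸ j.2)
    simp [this]

/-- few specialisations vanish identically. -/
lemma card_spec_zero {D : ℕ} (c : Fin D × Fin D → ℤ) (hc : c ≠ 0) (E : Finset ℤ) :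
    (E.filter (fun e => spec e (bip c) = 0)).card ≤ D := by
  classical
  obtain ⟨⟨i0, j0⟩, h0⟩ : ∃ ij, c ij ≠ 0 := by
    by_contra h
    push Not at h
    exact hc (funext h)
  let p : ℤ[X] := ∑ i : Fin D, C (c (i, j0)) * X ^ (i : ℕ)
  have hpc : ∀ i : Fin D, p.coeff i = c (i, j0) := by
    intro i
    simp only [p, finsetSum_coeff, coeff_C_mul, coeff_X_pow]
    rw [Finset.sum_eq_single i]
    · simp
    · intro j _ hj
      have : ¬ (i : ℕ) = (j : ℕ) := fun hk => hj (Fin.ext hk.symm)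
      simp [this]
    · simp
  have hp0 : p ≠ 0 := by
    intro h
    apply h0
    rw [← hpc i0, h, coeff_zero]
  have hsub : (E.filter (fun e => spec e (bip c) = 0)) ⊆ p.roots.toFinset := by
    intro e he
    rw [Finset.mem_filter] at he
    rw [Multiset.mem_toFinset, mem_roots hp0, IsRoot.def]
    have h1 := spec_bip_coeff c e j0
    rw [he.2, coeff_zero, dif_pos j0.2] at h1
    simp only [p, eval_finsetSum, eval_mul, eval_C, eval_pow, eval_X]
    exact h1.symm
  calc _ ≤ p.roots.toFinset.card := Finset.card_le_card hsub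
    _ ≤ p.roots.card := Multiset.toFinset_card_le _
    _ ≤ p.natDegree := p.card_roots'
    _ ≤ D := by
      refine natDegree_sum_le_of_forall_le _ _ (fun i _ => ?_)
      exact (natDegree_C_mul_X_pow_le _ _).trans i.2.le

lemma spec_iterate_derivative (e : ℤ) (f : ℤ[X][X]) (k : ℕ) :
    spec e (derivative^[k] f) = derivative^[k] (spec e f) := by
  unfold spec
  rw [Polynomial.iterate_derivative_map]

lemma spec_derivative (e : ℤ) (f : ℤ[X][X]) :
    spec e (derivative f) = derivative (spec e f) := by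
  unfold spec
  rw [Polynomial.derivative_map]

/-- stratification: at a positive proportion `1/D` of the points the same `y`-derivative of `f`
vanishes while its derivative does not. -/
theorem stratify {D : ℕ} (hD : 0 < D) (c : Fin D × Fin D → ℤ) (hc : c ≠ 0) (E : Finset ℤ)
    (n : ℤ → ℤ) (hval : ∀ e ∈ E, val c e (n e) = 0) :
    ∃ j < D, E.card ≤ D + D * (E.filter (fun e =>
      (spec e (derivative^[j] (bip c))).eval (n e) = 0 ∧
      (spec e (derivative (derivative^[j] (bip c)))).eval (n e) ≠ 0)).card := by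
  classical
  set E0 := E.filter (fun e => ¬ spec e (bip c) = 0) with hE0
  have hE0c : E.card ≤ D + E0.card := by
    have h1 : (E.filter (fun e => spec e (bip c) = 0)).card + E0.card = E.card := by
      rw [hE0]; convert Finset.card_filter_add_card_filter_not (s := E) (fun e => spec e (bip c) = 0)
    have h2 := card_spec_zero c hc E
    omega
  let m : ℤ → ℕ := fun e => (spec e (bip c)).rootMultiplicity (n e) - 1
  have hm : ∀ e ∈ E0, 1 ≤ (spec e (bip c)).rootMultiplicity (n e) ∧ m e < D := by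
    intro e he
    rw [hE0, Finset.mem_filter] at he
    have hr : (spec e (bip c)).IsRoot (n e) := by
      rw [IsRoot.def, spec_bip_eval]; exact hval e he.1
    have h1 : 0 < (spec e (bip c)).rootMultiplicity (n e) :=
      (rootMultiplicity_pos he.2).2 hr
    have h2 : (spec e (bip c)).rootMultiplicity (n e) ≤ D - 1 := by
      have h3 : (spec e (bip c)).rootMultiplicity (n e) ≤ (spec e (bip c)).natDegree := by
        have := rootMultiplicity_le_iff he.2 (n e)
          ((spec e (bip c)).natDegree)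
        rw [this]
        intro hdvd
        have := natDegree_le_of_dvd hdvd he.2
        rw [natDegree_pow, natDegree_X_sub_C] at this
        omega
      have h4 : (spec e (bip c)).natDegree ≤ (bip c).natDegree := natDegree_map_le
      have h5 := bip_natDegree_lt hD c
      omega
    refine ⟨h1, ?_⟩
    simp only [m]; omega
  obtain ⟨j, hj, hjc⟩ : ∃ j ∈ Finset.range D, E0.card ≤ D * (E0.filter (fun e => m e = j)).card := by
    by_contra hcon
    push Not at hcon
    have h1 : E0.card = ∑ j ∈ Finset.range D, (E0.filter (fun e => m e = j)).card :=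
      Finset.card_eq_sum_card_fiberwise (fun e he => Finset.mem_coe.2 (Finset.mem_range.2 (hm e he).2))
    have h2 : D * E0.card < D * E0.card := by
      calc D * E0.card = ∑ j ∈ Finset.range D, D * (E0.filter (fun e => m e = j)).card := by
            rw [h1, Finset.mul_sum]
        _ < ∑ j ∈ Finset.range D, E0.card :=
            Finset.sum_lt_sum_of_nonempty ⟨0, Finset.mem_range.2 hD⟩ (fun j hj => hcon j hj)
        _ = D * E0.card := by rw [Finset.sum_const, Finset.card_range, smul_eq_mul]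
    exact lt_irrefl _ h2
  refine ⟨j, Finset.mem_range.1 hj, ?_⟩
  have hsub : (E0.filter (fun e => m e = j)) ⊆ (E.filter (fun e =>
      (spec e (derivative^[j] (bip c))).eval (n e) = 0 ∧
      (spec e (derivative (derivative^[j] (bip c)))).eval (n e) ≠ 0)) := by
    intro e he
    rw [Finset.mem_filter] at he ⊢
    obtain ⟨he0, hme⟩ := he
    have he0' := he0
    rw [hE0, Finset.mem_filter] at he0'
    obtain ⟨h1, h2⟩ := hm e he0
    refine ⟨he0'.1, ?_, ?_⟩
    · rw [spec_iterate_derivative]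
      have : j < (spec e (bip c)).rootMultiplicity (n e) := by
        simp only [m] at hme; omega
      exact isRoot_iterate_derivative_of_lt_rootMultiplicity this
    · rw [spec_derivative, spec_iterate_derivative, ← Function.iterate_succ_apply' (f := derivative)]
      have hj1 : j.succ = (spec e (bip c)).rootMultiplicity (n e) := by
        simp only [m] at hme; omega
      rw [hj1, eval_iterate_derivative_rootMultiplicity]
      have h3 := eval_divByMonic_pow_rootMultiplicity_ne_zero (n e) he0'.2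
      rw [nsmul_eq_mul]
      exact mul_ne_zero (by exact_mod_cast (Nat.factorial_ne_zero _)) h3
  calc E.card ≤ D + E0.card := hE0c
    _ ≤ D + D * (E0.filter (fun e => m e = j)).card := by omega
    _ ≤ _ := by
      have := Finset.card_le_card hsub
      gcongr

/-- coefficient bounds under differentiation. -/
lemma iterate_derivative_coeff_le (p : ℤ[X]) (D : ℕ) (hdeg : p.natDegree < D) (M : ℤ)
    (hM : ∀ k, |p.coeff k| ≤ M) (j : ℕ) :
    (derivative^[j] p).natDegree < D ∧ ∀ k, |(derivative^[j] p).coeff k| ≤ M * D ^ j := by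
  induction j with
  | zero => exact ⟨hdeg, fun k => by simpa using hM k⟩
  | succ j ih =>
    rw [Function.iterate_succ_apply']
    obtain ⟨h1, h2⟩ := ih
    refine ⟨lt_of_le_of_lt ((natDegree_derivative_le _).trans (by omega)) h1, fun k => ?_⟩
    rw [coeff_derivative]
    by_cases hk : k + 1 < D
    · rw [abs_mul]
      have h3 := h2 (k + 1)
      have h4 : |((k : ℤ) + 1)| ≤ D := by
        rw [abs_of_nonneg (by positivity)]; exact_mod_cast hk.le
      calc |(derivative^[j] p).coeff (k + 1)| * |((k : ℤ) + 1)| ≤ (M * D ^ j) * D :=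
            mul_le_mul h3 h4 (abs_nonneg _) ((abs_nonneg _).trans h3)
        _ = M * D ^ (j + 1) := by ring
    · rw [coeff_eq_zero_of_natDegree_lt (lt_of_lt_of_le h1 (not_lt.mp hk)), zero_mul, abs_zero]
      have h0 : 0 ≤ M := (abs_nonneg _).trans (hM 0)
      positivity

lemma eval_abs_le (p : ℤ[X]) (D : ℕ) (hdeg : p.natDegree < D) (M : ℤ)
    (hM : ∀ k, |p.coeff k| ≤ M) (y : ℤ) (T : ℕ) (hT : 1 ≤ T) (hy : |y| ≤ T) :
    |p.eval y| ≤ D * M * T ^ D := by
  rw [eval_eq_sum_range' hdeg]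
  have hT' : (1 : ℤ) ≤ T := by exact_mod_cast hT
  have h0 : 0 ≤ M := (abs_nonneg _).trans (hM 0)
  calc |∑ i ∈ range D, p.coeff i * y ^ i| ≤ ∑ i ∈ range D, |p.coeff i * y ^ i| :=
        Finset.abs_sum_le_sum_abs _ _
    _ ≤ ∑ _i ∈ range D, M * T ^ D := by
        refine Finset.sum_le_sum (fun i hi => ?_)
        rw [abs_mul, abs_pow]
        have h1 : |y| ^ i ≤ (T : ℤ) ^ D :=
          (pow_le_pow_left₀ (abs_nonneg _) hy _).trans (pow_le_pow_right₀ hT' (mem_range.1 hi).le)
        exact mul_le_mul (hM i) h1 (by positivity) h0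
    _ = D * M * T ^ D := by rw [sum_const, card_range, nsmul_eq_mul]; ring

lemma abs_spec_derivative_le {D : ℕ} (hD : 0 < D) (c : Fin D × Fin D → ℤ) (H : ℕ)
    (hc : ∀ ij, |c ij| ≤ H) (e y : ℤ) (T : ℕ) (hT : 1 ≤ T) (he : |e| ≤ T) (hy : |y| ≤ T)
    (j : ℕ) (hj : j ≤ D) :
    |(spec e (derivative^[j] (bip c))).eval y| ≤ D ^ (D + 2) * H * T ^ (2 * D) := by
  rw [spec_iterate_derivative]
  have hT' : (1 : ℤ) ≤ T := by exact_mod_cast hT
  have hD' : (1 : ℤ) ≤ D := by exact_mod_cast hD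
  have hcoef : ∀ k, |(spec e (bip c)).coeff k| ≤ (D : ℤ) * (H * T ^ D) := by
    intro k
    rw [spec_bip_coeff]
    split_ifs with h
    · calc |∑ i : Fin D, c (i, ⟨k, h⟩) * e ^ (i : ℕ)|
          ≤ ∑ i : Fin D, |c (i, ⟨k, h⟩) * e ^ (i : ℕ)| := Finset.abs_sum_le_sum_abs _ _
        _ ≤ ∑ _i : Fin D, (H : ℤ) * T ^ D := by
            refine Finset.sum_le_sum (fun i _ => ?_)
            rw [abs_mul, abs_pow]
            have h1 : |e| ^ (i : ℕ) ≤ (T : ℤ) ^ D :=
              (pow_le_pow_left₀ (abs_nonneg _) he _).trans (pow_le_pow_right₀ hT' i.2.le)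
            exact mul_le_mul (hc _) h1 (by positivity) (by positivity)
        _ = (D : ℤ) * (H * T ^ D) := by
            rw [Finset.sum_const, Finset.card_univ, Fintype.card_fin, nsmul_eq_mul]
    · rw [abs_zero]; positivity
  have hdeg : (spec e (bip c)).natDegree < D :=
    lt_of_le_of_lt natDegree_map_le (bip_natDegree_lt hD c)
  obtain ⟨h1, h2⟩ := iterate_derivative_coeff_le _ D hdeg _ hcoef j
  have h3 := eval_abs_le _ D h1 _ h2 y T hT hy
  refine h3.trans ?_
  have h4 : (D : ℤ) ^ j ≤ (D : ℤ) ^ D := pow_le_pow_right₀ hD' hj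
  calc (D : ℤ) * ((D : ℤ) * (H * T ^ D) * D ^ j) * T ^ D
      ≤ (D : ℤ) * ((D : ℤ) * (H * T ^ D) * D ^ D) * T ^ D := by gcongr
    _ = D ^ (D + 2) * H * T ^ (2 * D) := by rw [two_mul, pow_add, pow_add]; ring

end Crest.Agent.R1.ST
end

-- ▼ part R1/ST3
section

/-!
R1, structure theorem (ST), part 3: the p-adic collinearity step.
-/

namespace Crest.Agent.R1.ST

open Finset Polynomial

lemma spec_eval_eq (f : ℤ[X][X]) (x y : ℤ) : (spec x f).eval y = (f.eval (C y)).eval x := by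
  unfold spec
  rw [map_evalRingHom_eval]

/-- first order Taylor expansion modulo `p ^ 2`. -/
lemma taylor (f : ℤ[X][X]) (p x y : ℤ) : ∃ A : ℤ, ∀ u v : ℤ,
    p ^ 2 ∣ (spec (x + p * u) f).eval (y + p * v) - (spec x f).eval y
      - p * (u * A + v * (spec x (derivative f)).eval y) := by
  refine ⟨(derivative (f.eval (C y))).eval x, fun u v => ?_⟩
  obtain ⟨k1, hk1⟩ := binomExpansion (spec (x + p * u) f) y (p * v)
  obtain ⟨k2, hk2⟩ := binomExpansion (f.eval (C y)) x (p * u)
  have h3 : (spec (x + p * u) f).eval y = (f.eval (C y)).eval (x + p * u) := spec_eval_eq _ _ _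
  have h4 : (spec x f).eval y = (f.eval (C y)).eval x := spec_eval_eq _ _ _
  have h5 : (derivative (spec (x + p * u) f)).eval y
      = ((derivative f).eval (C y)).eval (x + p * u) := by
    rw [← spec_derivative, spec_eval_eq]
  have h6 : (spec x (derivative f)).eval y = ((derivative f).eval (C y)).eval x :=
    spec_eval_eq _ _ _
  obtain ⟨k3, hk3⟩ : (x + p * u) - x ∣ ((derivative f).eval (C y)).eval (x + p * u)
      - ((derivative f).eval (C y)).eval x := sub_dvd_eval_sub _ _ _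
  rw [hk1, h3, hk2, h4, h5, h6]
  have h7 : ((derivative f).eval (C y)).eval (x + p * u)
      = ((derivative f).eval (C y)).eval x + (x + p * u - x) * k3 := by linarith
  rw [h7]
  exact ⟨u ^ 2 * k2 + u * v * k3 + v ^ 2 * k1, by ring⟩

/-- three points of a curve in the same smooth residue class mod `p` have determinant divisible
by `p ^ 3`. -/
lemma det_dvd (f : ℤ[X][X]) (p : ℕ) (hp : p.Prime) (x y x1 y1 x2 y2 : ℤ)
    (h0 : (spec x f).eval y = 0) (h1 : (spec x1 f).eval y1 = 0) (h2 : (spec x2 f).eval y2 = 0)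
    (hd : ¬ (p : ℤ) ∣ (spec x (derivative f)).eval y)
    (hx1 : (p : ℤ) ∣ x1 - x) (hy1 : (p : ℤ) ∣ y1 - y) (hx2 : (p : ℤ) ∣ x2 - x)
    (hy2 : (p : ℤ) ∣ y2 - y) :
    ((p : ℤ)) ^ 3 ∣ (x1 - x) * (y2 - y) - (x2 - x) * (y1 - y) := by
  obtain ⟨u1, hu1⟩ := hx1
  obtain ⟨v1, hv1⟩ := hy1
  obtain ⟨u2, hu2⟩ := hx2
  obtain ⟨v2, hv2⟩ := hy2
  obtain ⟨A, hA⟩ := taylor f p x y
  set B := (spec x (derivative f)).eval y with hB
  have hpp : Prime (p : ℤ) := Nat.prime_iff_prime_int.mp hp
  have hp0 : (p : ℤ) ≠ 0 := hpp.ne_zero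
  have key : ∀ x' y' u v : ℤ, (spec x' f).eval y' = 0 → x' - x = p * u → y' - y = p * v →
      (p : ℤ) ∣ u * A + v * B := by
    intro x' y' u v hz hxu hyv
    have e1 : x' = x + p * u := by linarith
    have e2 : y' = y + p * v := by linarith
    have h := hA u v
    rw [← e1, ← e2, hz, h0, sub_zero, zero_sub, dvd_neg, pow_two] at h
    exact (mul_dvd_mul_iff_left hp0).mp h
  have k1 := key x1 y1 u1 v1 h1 hu1 hv1
  have k2 := key x2 y2 u2 v2 h2 hu2 hv2
  have k3 : (p : ℤ) ∣ (u1 * v2 - u2 * v1) * B := by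
    have : (u1 * v2 - u2 * v1) * B = u1 * (u2 * A + v2 * B) - u2 * (u1 * A + v1 * B) := by ring
    rw [this]
    exact dvd_sub (Dvd.dvd.mul_left k2 _) (Dvd.dvd.mul_left k1 _)
  have k4 : (p : ℤ) ∣ u1 * v2 - u2 * v1 := (hpp.dvd_or_dvd k3).resolve_right hd
  obtain ⟨w, hw⟩ := k4
  refine ⟨w, ?_⟩
  rw [hu1, hv1, hu2, hv2]
  calc (p : ℤ) * u1 * (p * v2) - p * u2 * (p * v1) = p ^ 2 * (u1 * v2 - u2 * v1) := by ring
    _ = (p : ℤ) ^ 3 * w := by rw [hw]; ring

/-- choice of a prime at which most of the `w e` are units. -/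
lemma exists_prime (E : Finset ℤ) (w : ℤ → ℤ) (hw : ∀ e ∈ E, w e ≠ 0) (W : ℤ)
    (hW : ∀ e ∈ E, |w e| ≤ W) (PP : Finset ℕ) (hPP : ∀ p ∈ PP, p.Prime) (P1 : ℕ)
    (hP1 : ∀ p ∈ PP, P1 ≤ p) (hP1' : 1 ≤ P1) (T : ℕ) (hT : W < (P1 : ℤ) ^ (T + 1))
    (hcard : 2 * T ≤ PP.card) (hne : PP.Nonempty) :
    ∃ p ∈ PP, E.card ≤ 2 * (E.filter (fun e => ¬ (p : ℤ) ∣ w e)).card := by
  classical
  have hT' : ∀ e ∈ E, (PP.filter (fun p : ℕ => (p : ℤ) ∣ w e)).card ≤ T := by
    intro e he
    by_contra hcon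
    push Not at hcon
    apply hw e he
    refine eq_zero_of_primes (w e) (PP.filter (fun p : ℕ => (p : ℤ) ∣ w e))
      (fun g hg => hPP g (Finset.mem_filter.1 hg).1) (fun g hg => (Finset.mem_filter.1 hg).2) ?_
    calc |w e| ≤ W := hW e he
      _ < (P1 : ℤ) ^ (T + 1) := hT
      _ ≤ (P1 : ℤ) ^ (PP.filter (fun p : ℕ => (p : ℤ) ∣ w e)).card := by
          refine pow_le_pow_right₀ (by exact_mod_cast hP1') hcon
      _ = ∏ _g ∈ PP.filter (fun p : ℕ => (p : ℤ) ∣ w e), (P1 : ℤ) := by rw [Finset.prod_const]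
      _ ≤ _ := by
          refine Finset.prod_le_prod (fun _ _ => by positivity) (fun g hg => ?_)
          exact_mod_cast hP1 g (Finset.mem_filter.1 hg).1
  have hdc : ∑ p ∈ PP, (E.filter (fun e => (p : ℤ) ∣ w e)).card
      = ∑ e ∈ E, (PP.filter (fun p : ℕ => (p : ℤ) ∣ w e)).card := by
    simp only [Finset.card_filter]
    exact Finset.sum_comm
  by_contra hcon
  push Not at hcon
  have h1 : ∀ p ∈ PP, E.card < 2 * (E.filter (fun e => (p : ℤ) ∣ w e)).card := by
    intro p hp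
    have h2 := hcon p hp
    have h3 : (E.filter (fun e => (p : ℤ) ∣ w e)).card + (E.filter (fun e => ¬ (p : ℤ) ∣ w e)).card
        = E.card := Finset.card_filter_add_card_filter_not _
    omega
  have h2 : PP.card * E.card < 2 * (E.card * T) := by
    calc PP.card * E.card = ∑ _p ∈ PP, E.card := by rw [Finset.sum_const, smul_eq_mul]
      _ < ∑ p ∈ PP, 2 * (E.filter (fun e => (p : ℤ) ∣ w e)).card :=
          Finset.sum_lt_sum_of_nonempty hne h1
      _ = 2 * ∑ e ∈ E, (PP.filter (fun p : ℕ => (p : ℤ) ∣ w e)).card := by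
          rw [← Finset.mul_sum, hdc]
      _ ≤ 2 * ∑ _e ∈ E, T := by gcongr with e he; exact hT' e he
      _ = 2 * (E.card * T) := by rw [Finset.sum_const, smul_eq_mul]
  nlinarith [Nat.mul_le_mul_right E.card hcard]

/-- reduction mod `p` and specialisation at `x`. -/
noncomputable def red (p : ℕ) (h : ℤ[X][X]) (x : ZMod p) : (ZMod p)[X] :=
  h.map (eval₂RingHom (Int.castRingHom (ZMod p)) x)

lemma red_eval (p : ℕ) (h : ℤ[X][X]) (e n : ℤ) :
    (red p h (e : ZMod p)).eval (n : ZMod p) = (((spec e h).eval n : ℤ) : ZMod p) := by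
  have h1 : (Int.castRingHom (ZMod p)).comp (evalRingHom e)
      = eval₂RingHom (Int.castRingHom (ZMod p)) (e : ZMod p) := by
    ext <;> simp
  have h2 : (red p h (e : ZMod p)) = (spec e h).map (Int.castRingHom (ZMod p)) := by
    unfold red spec
    rw [Polynomial.map_map, h1]
  rw [h2]
  simp

/-- number of smooth residue classes on the curve. -/
lemma card_classes (p : ℕ) (hp : p.Prime) (h : ℤ[X][X]) (D : ℕ) (hdeg : h.natDegree ≤ D)
    (E : Finset ℤ) (n : ℤ → ℤ) (h0 : ∀ e ∈ E, (spec e h).eval (n e) = 0)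
    (h1 : ∀ e ∈ E, ¬ (p : ℤ) ∣ (spec e (derivative h)).eval (n e)) :
    (E.image (fun e : ℤ => ((e : ZMod p), ((n e : ℤ) : ZMod p)))).card ≤ p * D := by
  classical
  have : Fact p.Prime := ⟨hp⟩
  have hsub : E.image (fun e : ℤ => ((e : ZMod p), ((n e : ℤ) : ZMod p))) ⊆
      (Finset.univ : Finset (ZMod p)).biUnion
        (fun x => ((red p h x).roots.toFinset).image (fun y => (x, y))) := by
    intro xy hxy
    obtain ⟨e, he, rfl⟩ := Finset.mem_image.1 hxy
    rw [Finset.mem_biUnion]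
    refine ⟨(e : ZMod p), Finset.mem_univ _, Finset.mem_image.2 ⟨((n e : ℤ) : ZMod p), ?_, rfl⟩⟩
    rw [Multiset.mem_toFinset, mem_roots, IsRoot.def]
    · rw [red_eval, h0 e he, Int.cast_zero]
    · intro hz
      have h2 : (red p (derivative h) (e : ZMod p)).eval ((n e : ℤ) : ZMod p) = 0 := by
        have : red p (derivative h) (e : ZMod p) = derivative (red p h (e : ZMod p)) := by
          unfold red; rw [Polynomial.derivative_map]
        rw [this, hz, derivative_zero, eval_zero]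
      rw [red_eval, ZMod.intCast_zmod_eq_zero_iff_dvd] at h2
      exact h1 e he h2
  calc _ ≤ _ := Finset.card_le_card hsub
    _ ≤ ∑ x : ZMod p, (((red p h x).roots.toFinset).image (fun y => (x, y))).card :=
        Finset.card_biUnion_le
    _ ≤ ∑ _x : ZMod p, D := by
        refine Finset.sum_le_sum (fun x _ => ?_)
        calc _ ≤ ((red p h x).roots.toFinset).card := Finset.card_image_le
          _ ≤ (red p h x).roots.card := Multiset.toFinset_card_le _
          _ ≤ (red p h x).natDegree := card_roots' _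
          _ ≤ h.natDegree := natDegree_map_le
          _ ≤ D := hdeg
    _ = p * D := by rw [Finset.sum_const, Finset.card_univ, ZMod.card, smul_eq_mul]

/-- a popular class. -/
lemma exists_class (p : ℕ) (hp : p.Prime) (h : ℤ[X][X]) (D : ℕ) (hdeg : h.natDegree ≤ D)
    (E : Finset ℤ) (n : ℤ → ℤ) (h0 : ∀ e ∈ E, (spec e h).eval (n e) = 0)
    (h1 : ∀ e ∈ E, ¬ (p : ℤ) ∣ (spec e (derivative h)).eval (n e)) (M : ℕ)
    (hM : p * D * M < E.card) :
    ∃ CC ⊆ E, M < CC.card ∧ ∀ e ∈ CC, ∀ e' ∈ CC, (p : ℤ) ∣ e - e' ∧ (p : ℤ) ∣ n e - n e' := by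
  classical
  let φ : ℤ → ZMod p × ZMod p := fun e => ((e : ZMod p), ((n e : ℤ) : ZMod p))
  have hc := card_classes p hp h D hdeg E n h0 h1
  obtain ⟨y, hy, hy2⟩ := Finset.exists_lt_card_fiber_of_mul_lt_card_of_maps_to
    (s := E) (t := E.image φ) (f := φ) (n := M) (fun e he => Finset.mem_image_of_mem _ he)
    (lt_of_le_of_lt (Nat.mul_le_mul_right M hc) hM)
  refine ⟨E.filter (fun e => φ e = y), Finset.filter_subset _ _, hy2, fun e he e' he' => ?_⟩
  have h2 : φ e = φ e' := by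
    rw [(Finset.mem_filter.1 he).2, (Finset.mem_filter.1 he').2]
  have h3 := congrArg Prod.fst h2
  have h4 := congrArg Prod.snd h2
  simp only [φ] at h3 h4
  constructor
  · rw [← ZMod.intCast_zmod_eq_zero_iff_dvd]; push_cast; rw [h3, sub_self]
  · rw [← ZMod.intCast_zmod_eq_zero_iff_dvd]; push_cast; rw [h4, sub_self]

end Crest.Agent.R1.ST
end

-- ▼ part R1/ST4
section

/-!
R1, structure theorem (ST), part 4: extraction of the line and the larger sieve.
-/

namespace Crest.Agent.R1.ST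

open Finset Polynomial

/-- `m` distinct integers: one of them is large. -/
lemma exists_large (K : Finset ℤ) (hK : 0 < K.card) : ∃ k ∈ K, (K.card : ℤ) - 1 ≤ 2 * |k| := by
  by_contra hcon
  push Not at hcon
  set b : ℤ := ((K.card : ℤ) - 2) / 2 with hb
  have hsub : K ⊆ Finset.Icc (-b) b := by
    intro k hk
    have h1 := hcon k hk
    have h2 : |k| ≤ b := by omega
    rw [abs_le] at h2
    exact Finset.mem_Icc.2 h2
  have h3 := Finset.card_le_card hsub
  rw [Int.card_Icc] at h3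
  obtain ⟨k, hk⟩ := Finset.card_pos.1 hK
  have h1 := hcon k hk
  have h2 := abs_nonneg k
  omega

/-- points of a class which are collinear lie on a line with small slope. -/
lemma line (p : ℕ) (hp : 0 < p) (CC : Finset ℤ) (n : ℤ → ℤ) (M : ℕ) (hM : M < CC.card)
    (hM1 : 1 ≤ M)
    (hcl : ∀ e ∈ CC, ∀ e' ∈ CC, (p : ℤ) ∣ e - e' ∧ (p : ℤ) ∣ n e - n e')
    (hdet : ∀ e0 ∈ CC, ∀ e1 ∈ CC, ∀ e2 ∈ CC,
      (e1 - e0) * (n e2 - n e0) = (e2 - e0) * (n e1 - n e0))
    (R1 R2 : ℤ) (hR1 : ∀ e ∈ CC, ∀ e' ∈ CC, |e - e'| ≤ R1)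
    (hR2 : ∀ e ∈ CC, ∀ e' ∈ CC, |n e - n e'| ≤ R2) :
    ∃ V S U : ℤ, 1 ≤ V ∧ IsCoprime V S ∧ (∀ e ∈ CC, V * n e = U + S * e) ∧
      V * p * M ≤ 2 * R1 ∧ |S| * p * M ≤ 2 * R2 := by
  classical
  obtain ⟨e0, he0, e1, he1, hne⟩ := Finset.one_lt_card.1 (lt_of_le_of_lt hM1 hM)
  have hp' : (0 : ℤ) < p := by exact_mod_cast hp
  -- the direction vector
  set a := e1 - e0 with ha
  set b := n e1 - n e0 with hb
  have ha0 : a ≠ 0 := by rw [ha]; exact sub_ne_zero.mpr (Ne.symm hne)
  set g : ℤ := ((Int.gcd a b : ℕ) : ℤ) with hg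
  have hg0 : 0 < g := by
    rw [hg]; exact_mod_cast Int.gcd_pos_of_ne_zero_left b ha0
  obtain ⟨a', ha'⟩ : g ∣ a := Int.gcd_dvd_left a b
  obtain ⟨b', hb'⟩ : g ∣ b := Int.gcd_dvd_right a b
  have hcop : IsCoprime a' b' := by
    refine ⟨a.gcdA b, a.gcdB b, ?_⟩
    have h1 := Int.gcd_eq_gcd_ab a b
    have h2 : g * (a.gcdA b * a' + a.gcdB b * b') = g * 1 := by
      calc g * (a.gcdA b * a' + a.gcdB b * b') = (g * a') * a.gcdA b + (g * b') * a.gcdB b := by ring
        _ = a * a.gcdA b + b * a.gcdB b := by rw [← ha', ← hb']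
        _ = g * 1 := by rw [mul_one, hg, h1]
    exact mul_left_cancel₀ hg0.ne' h2
  have ha'0 : a' ≠ 0 := by rintro rfl; rw [mul_zero] at ha'; exact ha0 ha'
  -- each difference is a multiple of `p * (a', b')`
  have hk : ∀ e ∈ CC, ∃ k : ℤ, e - e0 = a' * p * k ∧ n e - n e0 = b' * p * k := by
    intro e he
    have h1 : a' * (n e - n e0) = (e - e0) * b' := by
      have h2 := hdet e0 he0 e1 he1 e he
      rw [← ha, ← hb, ha', hb'] at h2
      have h3 : g * (a' * (n e - n e0)) = g * ((e - e0) * b') := by linarith [h2]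
      exact mul_left_cancel₀ hg0.ne' h3
    obtain ⟨t, ht⟩ : a' ∣ e - e0 := by
      have : a' ∣ (e - e0) * b' := ⟨n e - n e0, h1.symm⟩
      exact hcop.dvd_of_dvd_mul_right this
    have h4 : n e - n e0 = b' * t := by
      have : a' * (n e - n e0) = a' * (b' * t) := by rw [h1, ht]; ring
      exact mul_left_cancel₀ ha'0 this
    obtain ⟨h5, h6⟩ := hcl e he e0 he0
    have h7 : (p : ℤ) ∣ t := by
      obtain ⟨u, v, huv⟩ := hcop
      have : t = u * (a' * t) + v * (b' * t) := by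
        calc t = (u * a' + v * b') * t := by rw [huv, one_mul]
          _ = _ := by ring
      rw [this, ← ht, ← h4]
      exact dvd_add (Dvd.dvd.mul_left h5 _) (Dvd.dvd.mul_left h6 _)
    obtain ⟨k, hk⟩ := h7
    exact ⟨k, by rw [ht, hk]; ring, by rw [h4, hk]; ring⟩
  choose! k hk using hk
  have hinj : Set.InjOn k (CC : Set ℤ) := by
    intro x hx y hy hxy
    have h1 := (hk x hx).1
    have h2 := (hk y hy).1
    rw [hxy] at h1
    linarith
  have hcard : (CC.image k).card = CC.card := Finset.card_image_of_injOn hinj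
  obtain ⟨k0, hk0, hk0'⟩ := exists_large (CC.image k) (by rw [hcard]; omega)
  obtain ⟨e2, he2, rfl⟩ := Finset.mem_image.1 hk0
  rw [hcard] at hk0'
  have hMk : (M : ℤ) ≤ 2 * |k e2| := by
    have : (M : ℤ) + 1 ≤ CC.card := by exact_mod_cast hM
    linarith
  have hb1 : |a'| * p * M ≤ 2 * R1 := by
    have h1 := hR1 e2 he2 e0 he0
    rw [(hk e2 he2).1, abs_mul, abs_mul, Nat.abs_cast] at h1
    calc |a'| * p * M ≤ |a'| * p * (2 * |k e2|) := by gcongr
      _ = 2 * (|a'| * p * |k e2|) := by ring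
      _ ≤ 2 * R1 := by linarith
  have hb2 : |b'| * p * M ≤ 2 * R2 := by
    have h1 := hR2 e2 he2 e0 he0
    rw [(hk e2 he2).2, abs_mul, abs_mul, Nat.abs_cast] at h1
    calc |b'| * p * M ≤ |b'| * p * (2 * |k e2|) := by gcongr
      _ = 2 * (|b'| * p * |k e2|) := by ring
      _ ≤ 2 * R2 := by linarith
  have hline : ∀ e ∈ CC, a' * n e = (a' * n e0 - b' * e0) + b' * e := by
    intro e he
    obtain ⟨h1, h2⟩ := hk e he
    have h3 : n e = n e0 + b' * p * k e := by linarith
    have h4 : e = e0 + a' * p * k e := by linarith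
    calc a' * n e = a' * n e0 + b' * (a' * p * k e) := by rw [h3]; ring
      _ = a' * n e0 + b' * (e - e0) := by rw [h1]
      _ = _ := by ring
  rcases lt_or_gt_of_ne ha'0 with hneg | hpos
  · refine ⟨-a', -b', -(a' * n e0 - b' * e0), by omega, hcop.neg_neg, fun e he => ?_, ?_, ?_⟩
    · have := hline e he; linarith
    · rw [abs_of_neg hneg] at hb1; exact hb1
    · rw [abs_neg]; exact hb2
  · refine ⟨a', b', (a' * n e0 - b' * e0), by omega, hcop, fun e he => ?_, ?_, ?_⟩
    · have := hline e he; linarith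
    · rw [abs_of_pos hpos] at hb1; exact hb1
    · exact hb2

/-- elements of a set in few classes: many congruent pairs. -/
lemma pairs_ge (C : Finset ℤ) (g B : ℕ) (cl : Finset (ZMod g)) (hcl : cl.card ≤ B)
    (hC : ∀ e ∈ C, (e : ZMod g) ∈ cl) :
    C.card ^ 2 ≤ B * ((C ×ˢ C).filter (fun q => (g : ℤ) ∣ q.1 - q.2)).card := by
  classical
  have h1 : C.card = ∑ y ∈ cl, (C.filter (fun e : ℤ => (e : ZMod g) = y)).card :=
    Finset.card_eq_sum_card_fiberwise (fun e he => hC e he)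
  have h2 : ∑ y ∈ cl, (C.filter (fun e : ℤ => (e : ZMod g) = y)).card ^ 2
      ≤ ((C ×ˢ C).filter (fun q => (g : ℤ) ∣ q.1 - q.2)).card := by
    have : ∑ y ∈ cl, (C.filter (fun e : ℤ => (e : ZMod g) = y)).card ^ 2
        = (cl.sigma (fun y => (C.filter (fun e : ℤ => (e : ZMod g) = y)) ×ˢ
          (C.filter (fun e : ℤ => (e : ZMod g) = y)))).card := by
      rw [Finset.card_sigma]
      refine Finset.sum_congr rfl (fun y _ => ?_)
      rw [Finset.card_product, pow_two]
    rw [this]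
    refine Finset.card_le_card_of_injOn (fun q => q.2) ?_ ?_
    · intro q hq
      have hq' := Finset.mem_sigma.1 (Finset.mem_coe.1 hq)
      obtain ⟨h3, h4⟩ := Finset.mem_product.1 hq'.2
      rw [Finset.mem_filter] at h3 h4
      refine Finset.mem_coe.2 (Finset.mem_filter.2 ⟨Finset.mem_product.2 ⟨h3.1, h4.1⟩, ?_⟩)
      rw [← ZMod.intCast_zmod_eq_zero_iff_dvd]
      push_cast
      rw [h3.2, h4.2, sub_self]
    · rintro ⟨y1, q1⟩ hq1 ⟨y2, q2⟩ hq2 h
      have hq1' := (Finset.mem_product.1 (Finset.mem_sigma.1 (Finset.mem_coe.1 hq1)).2).1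
      have hq2' := (Finset.mem_product.1 (Finset.mem_sigma.1 (Finset.mem_coe.1 hq2)).2).1
      rw [Finset.mem_filter] at hq1' hq2'
      simp only at h hq1' hq2'
      subst h
      have : y1 = y2 := by rw [← hq1'.2, ← hq2'.2]
      subst this
      rfl
  have h3 : C.card ^ 2 ≤ cl.card * ∑ y ∈ cl, (C.filter (fun e : ℤ => (e : ZMod g) = y)).card ^ 2 := by
    conv_lhs => rw [h1]
    exact sq_sum_le_card_mul_sum_sq
  calc C.card ^ 2 ≤ cl.card * ∑ y ∈ cl, (C.filter (fun e : ℤ => (e : ZMod g) = y)).card ^ 2 := h3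
    _ ≤ B * _ := Nat.mul_le_mul hcl h2

/-- few primes `g ≥ G` divide a nonzero integer. -/
lemma card_dvd_le (GG : Finset ℕ) (hGG : ∀ g ∈ GG, g.Prime) (G : ℕ) (hG : ∀ g ∈ GG, G ≤ g)
    (hG1 : 1 ≤ G) (N : ℤ) (hN : N ≠ 0) (W : ℕ) (hW : |N| < (G : ℤ) ^ (W + 1)) :
    (GG.filter (fun g : ℕ => (g : ℤ) ∣ N)).card ≤ W := by
  by_contra hcon
  push Not at hcon
  apply hN
  refine eq_zero_of_primes N (GG.filter (fun g : ℕ => (g : ℤ) ∣ N))
    (fun g hg => hGG g (Finset.mem_filter.1 hg).1) (fun g hg => (Finset.mem_filter.1 hg).2) ?_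
  calc |N| < (G : ℤ) ^ (W + 1) := hW
    _ ≤ (G : ℤ) ^ (GG.filter (fun g : ℕ => (g : ℤ) ∣ N)).card :=
        pow_le_pow_right₀ (by exact_mod_cast hG1) hcon
    _ = ∏ _g ∈ GG.filter (fun g : ℕ => (g : ℤ) ∣ N), (G : ℤ) := by rw [Finset.prod_const]
    _ ≤ _ := by
        refine Finset.prod_le_prod (fun _ _ => by positivity) (fun g hg => ?_)
        exact_mod_cast hG g (Finset.mem_filter.1 hg).1

/-- the larger sieve in the form needed here. `CC` = points on a line, `Bad e` = the set of bad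
primes for `e`.  If each `e` has at least `K` bad primes outside the good set, and for each
`g` the bad `e` lie in at most `|cl g|` classes, then the number of elements is small. -/
lemma larger_sieve (CC : Finset ℤ) (GG : Finset ℕ) (hGG : ∀ g ∈ GG, g.Prime) (G BB W K : ℕ)
    (hG : ∀ g ∈ GG, G ≤ g) (hG1 : 1 ≤ G) (R1 : ℤ)
    (hR1 : ∀ e ∈ CC, ∀ e' ∈ CC, |e - e'| ≤ R1) (hW : R1 < (G : ℤ) ^ (W + 1))
    (bad : ℤ → ℕ → Prop) [∀ e g, Decidable (bad e g)]
    (hbad : ∀ e ∈ CC, K ≤ (GG.filter (fun g => bad e g)).card)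
    (cl : ∀ g : ℕ, Finset (ZMod g)) (hcl : ∑ g ∈ GG, (cl g).card ≤ BB)
    (hin : ∀ e ∈ CC, ∀ g ∈ GG, bad e g → (e : ZMod g) ∈ cl g) :
    K ^ 2 * CC.card ≤ BB * (GG.card + W * CC.card) := by
  classical
  have h1 : K * CC.card ≤ ∑ g ∈ GG, (CC.filter (fun e => bad e g)).card := by
    calc K * CC.card = ∑ _e ∈ CC, K := by rw [Finset.sum_const, smul_eq_mul, mul_comm]
      _ ≤ ∑ e ∈ CC, (GG.filter (fun g => bad e g)).card := Finset.sum_le_sum hbad
      _ = ∑ g ∈ GG, (CC.filter (fun e => bad e g)).card := by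
          simp only [Finset.card_filter]
          exact Finset.sum_comm
  have h3 : ∀ g ∈ GG, (CC.filter (fun e => bad e g)).card ^ 2 ≤
      (cl g).card * ((CC ×ˢ CC).filter (fun q => (g : ℤ) ∣ q.1 - q.2)).card := by
    intro g hg
    refine (pairs_ge _ g (cl g).card (cl g) le_rfl (fun e he => ?_)).trans ?_
    · exact hin e (Finset.mem_filter.1 he).1 g hg (Finset.mem_filter.1 he).2
    · refine Nat.mul_le_mul_left _ (Finset.card_le_card ?_)
      refine Finset.filter_subset_filter _ ?_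
      exact Finset.product_subset_product (Finset.filter_subset _ _) (Finset.filter_subset _ _)
  have h2 : (K * CC.card) ^ 2 ≤ (∑ g ∈ GG, (cl g).card) *
      ∑ g ∈ GG, ((CC ×ˢ CC).filter (fun q => (g : ℤ) ∣ q.1 - q.2)).card :=
    (Nat.pow_le_pow_left h1 2).trans
      (Finset.sum_sq_le_sum_mul_sum_of_sq_le_mul _ (fun _ _ => Nat.zero_le _)
        (fun _ _ => Nat.zero_le _) h3)
  have h4 : ∑ g ∈ GG, ((CC ×ˢ CC).filter (fun q => (g : ℤ) ∣ q.1 - q.2)).card
      ≤ CC.card * GG.card + CC.card ^ 2 * W := by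
    calc ∑ g ∈ GG, ((CC ×ˢ CC).filter (fun q : ℤ × ℤ => (g : ℤ) ∣ q.1 - q.2)).card
        = ∑ q ∈ CC ×ˢ CC, (GG.filter (fun g : ℕ => (g : ℤ) ∣ q.1 - q.2)).card := by
          simp only [Finset.card_filter]
          exact Finset.sum_comm
      _ ≤ ∑ q ∈ CC ×ˢ CC, (W + if q.1 = q.2 then GG.card else 0) := by
          refine Finset.sum_le_sum (fun q hq => ?_)
          obtain ⟨hq1, hq2⟩ := Finset.mem_product.1 hq
          split_ifs with h
          · exact (Finset.card_filter_le _ _).trans (by omega)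
          · rw [add_zero]
            exact card_dvd_le GG hGG G hG hG1 _ (sub_ne_zero.mpr h) W
              (lt_of_le_of_lt (hR1 _ hq1 _ hq2) hW)
      _ = CC.card * GG.card + CC.card ^ 2 * W := by
          rw [Finset.sum_add_distrib, Finset.sum_const, Finset.card_product, smul_eq_mul,
            ← Finset.sum_filter, Finset.sum_const, smul_eq_mul]
          have : ((CC ×ˢ CC).filter (fun q => q.1 = q.2)).card = CC.card := by
            have h5 : (CC ×ˢ CC).filter (fun q => q.1 = q.2) = CC.diag := by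
              ext q
              simp only [Finset.mem_filter, Finset.mem_product, Finset.mem_diag]
              constructor
              · rintro ⟨⟨h, _⟩, h'⟩; exact ⟨h, h'⟩
              · rintro ⟨h, h'⟩; exact ⟨⟨h, h' ▸ h⟩, h'⟩
            rw [h5, Finset.diag_card]
          rw [this]; ring
  have h5 : (K * CC.card) ^ 2 ≤ BB * (CC.card * GG.card + CC.card ^ 2 * W) :=
    h2.trans (Nat.mul_le_mul hcl h4)
  rcases Nat.eq_zero_or_pos CC.card with h0 | h0
  · rw [h0]; simp
  · have h6 : CC.card * (K ^ 2 * CC.card) ≤ CC.card * (BB * (GG.card + W * CC.card)) := by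
      calc CC.card * (K ^ 2 * CC.card) = (K * CC.card) ^ 2 := by ring
        _ ≤ _ := h5
        _ = _ := by ring
    exact Nat.le_of_mul_le_mul_left h6 h0

end Crest.Agent.R1.ST
end

-- ▼ part R1/ST5
section

/-!
R1, structure theorem (ST), part 5: assembly.
-/

namespace Crest.Agent.R1.ST

open Finset Polynomial

lemma numeric (K K' q B W M c : ℕ) (h1 : K ≤ 2 * K') (h2 : K' ^ 2 * c ≤ B * (q + W * c))
    (h3 : M < 2 * c) (h4 : 8 * q * B + 4 * B * W * M < K ^ 2 * M) : False := by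
  have e1 : K ^ 2 ≤ 4 * K' ^ 2 := by
    calc K ^ 2 ≤ (2 * K') ^ 2 := Nat.pow_le_pow_left h1 2
      _ = 4 * K' ^ 2 := by ring
  have e2 : K ^ 2 * M * c ≤ 4 * q * B * M + 4 * B * W * M * c := by
    calc K ^ 2 * M * c = K ^ 2 * (M * c) := by ring
      _ ≤ 4 * K' ^ 2 * (M * c) := Nat.mul_le_mul_right _ e1
      _ = 4 * M * (K' ^ 2 * c) := by ring
      _ ≤ 4 * M * (B * (q + W * c)) := Nat.mul_le_mul_left _ h2
      _ = 4 * q * B * M + 4 * B * W * M * c := by ring
  have e3 : (8 * q * B + 4 * B * W * M) * c < K ^ 2 * M * c :=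
    Nat.mul_lt_mul_of_pos_right h4 (by omega)
  have e4 : 4 * q * B * M ≤ 8 * q * B * c := by
    calc 4 * q * B * M ≤ 4 * q * B * (2 * c) := Nat.mul_le_mul_left _ h3.le
      _ = 8 * q * B * c := by ring
  have e5 : (8 * q * B + 4 * B * W * M) * c
      = 8 * q * B * c + 4 * B * W * M * c := by ring
  omega

/-- **Structure theorem**, core form (all conditions are explicit numeric hypotheses). -/
theorem core (Y : ℕ) (hY : 1 ≤ Y) (E : Finset ℤ) (hE : ∀ e ∈ E, (Y : ℤ) ≤ e ∧ e ≤ 2 * Y)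
    (n : ℤ → ℤ) (hn : ∀ e ∈ E, 0 ≤ n e ∧ n e ≤ 2 * Y)
    (GG : Finset ℕ) (hGG : ∀ g ∈ GG, g.Prime) (G1 G2 : ℕ) (hG1 : 1 ≤ G1)
    (hGl : ∀ g ∈ GG, G1 ≤ g) (hGu : ∀ g ∈ GG, g ≤ G2)
    (a : ℕ → ℤ) (R : ∀ g : ℕ, Finset (ZMod g)) (B : ℕ) (hR : ∑ g ∈ GG, (R g).card ≤ B)
    (K : ℕ) (bad : ℤ → ℕ → Prop) [∀ e g, Decidable (bad e g)]
    (hbadR : ∀ e ∈ E, ∀ g ∈ GG, bad e g → ∃ r ∈ R g, ((a g - n e : ℤ) : ZMod g) = r * e)
    (hbad : ∀ e ∈ E, K ≤ (GG.filter (fun g => bad e g)).card)
    (D H : ℕ) (hD : 0 < D)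
    (N1 : G2 ^ (2 * D * B) < (H + 1) ^ (D * D))
    (N2 : D * D * H * (2 * Y) ^ (2 * D) < G1 ^ K)
    (PP : Finset ℕ) (hPP : ∀ p ∈ PP, p.Prime) (hne : PP.Nonempty) (P1 P2 : ℕ)
    (hP1 : ∀ p ∈ PP, P1 ≤ p) (hP2 : ∀ p ∈ PP, p ≤ P2) (hPY : 4 * Y ^ 2 < P1 ^ 3)
    (T : ℕ) (hT : D ^ (D + 2) * H * (2 * Y) ^ (2 * D) < P1 ^ (T + 1)) (hT2 : 2 * T ≤ PP.card)
    (M : ℕ) (hM : 1 ≤ M) (N4 : D + 2 * D * (P2 * D * M) < E.card)
    (W : ℕ) (hW : Y < G1 ^ (W + 1))
    (N5 : 8 * GG.card * B + 4 * B * W * M < K ^ 2 * M) :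
    ∃ V S U : ℤ, 1 ≤ V ∧ IsCoprime V S ∧ V * P1 * M ≤ 2 * Y ∧ |S| * P1 * M ≤ 4 * Y ∧
      ∃ E' ⊆ E, M ≤ 2 * E'.card ∧ ∀ e ∈ E', V * n e = U + S * e ∧
        (GG.filter (fun g => bad e g)).card ≤
          2 * (GG.filter (fun g => bad e g ∧ (g : ℤ) ∣ V * a g - U)).card := by
  classical
  -- the auxiliary polynomial
  have hG2 : 1 ≤ G2 := by
    by_contra h
    have h0 : GG = ∅ := by
      apply Finset.eq_empty_of_forall_notMem
      intro g hg
      have := hGl g hg; have := hGu g hg; omega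
    rw [h0] at N5
    have hE0 : E.Nonempty := by
      rw [← Finset.card_pos]; omega
    obtain ⟨e, he⟩ := hE0
    have := hbad e he
    rw [h0] at this
    simp only [Finset.filter_empty, Finset.card_empty] at this
    have hK0 : K = 0 := by omega
    rw [hK0] at N5
    simp at N5
  obtain ⟨c, hc0, hcH, hcv⟩ := exists_poly GG hGG G2 B D H hGu hG2 a R hR hD N1
  -- it vanishes at all points
  have hval : ∀ e ∈ E, val c e (n e) = 0 := by
    intro e he
    refine eq_zero_of_primes _ (GG.filter (fun g => bad e g))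
      (fun g hg => hGG g (Finset.mem_filter.1 hg).1) (fun g hg => ?_) ?_
    · obtain ⟨hg1, hg2⟩ := Finset.mem_filter.1 hg
      obtain ⟨r, hr, hreq⟩ := hbadR e he g hg1 hg2
      have := hcv g hg1 r hr e (n e) hreq
      rwa [ZMod.intCast_zmod_eq_zero_iff_dvd] at this
    · have h1 : |val c e (n e)| ≤ D * D * H * ((2 * Y : ℕ) : ℤ) ^ (2 * D) := by
        refine abs_val_le c H hcH e (n e) (2 * Y) (by omega) ?_ ?_
        · obtain ⟨h2, h3⟩ := hE e he
          rw [abs_of_nonneg (by omega)]; push_cast; exact h3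
        · obtain ⟨h2, h3⟩ := hn e he
          rw [abs_of_nonneg h2]; push_cast; exact h3
      calc |val c e (n e)| ≤ D * D * H * ((2 * Y : ℕ) : ℤ) ^ (2 * D) := h1
        _ < (G1 : ℤ) ^ K := by exact_mod_cast N2
        _ ≤ (G1 : ℤ) ^ (GG.filter (fun g => bad e g)).card :=
            pow_le_pow_right₀ (by exact_mod_cast hG1) (hbad e he)
        _ = ∏ _g ∈ GG.filter (fun g => bad e g), (G1 : ℤ) := by rw [Finset.prod_const]
        _ ≤ _ := by
            refine Finset.prod_le_prod (fun _ _ => by positivity) (fun g hg => ?_)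
            exact_mod_cast hGl g (Finset.mem_filter.1 hg).1
  -- stratification
  obtain ⟨j, hj, hjc⟩ := stratify hD c hc0 E n hval
  set h := derivative^[j] (bip c) with hh
  set Ej := E.filter (fun e => (spec e h).eval (n e) = 0 ∧
      (spec e (derivative h)).eval (n e) ≠ 0) with hEj
  have hEjsub : Ej ⊆ E := Finset.filter_subset _ _
  -- the prime
  obtain ⟨p, hp, hpc⟩ := exists_prime Ej (fun e => (spec e (derivative h)).eval (n e))
    (fun e he => (Finset.mem_filter.1 he).2.2) (D ^ (D + 2) * H * ((2 * Y : ℕ) : ℤ) ^ (2 * D))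
    (fun e he => by
      have he' := hEjsub he
      have h1 : derivative h = derivative^[j + 1] (bip c) := by
        rw [hh, ← Function.iterate_succ_apply' (f := derivative)]
      simp only [h1]
      refine abs_spec_derivative_le hD c H hcH e (n e) (2 * Y) (by omega) ?_ ?_ (j + 1) hj
      · obtain ⟨h2, h3⟩ := hE e he'
        rw [abs_of_nonneg (by omega)]; push_cast; exact h3
      · obtain ⟨h2, h3⟩ := hn e he'
        rw [abs_of_nonneg h2]; push_cast; exact h3)
    PP hPP P1 hP1 (by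
      rcases Nat.eq_zero_or_pos P1 with h0 | h0
      · rw [h0] at hPY; simp at hPY
      · exact h0) T (by exact_mod_cast hT) hT2 hne
  set Ep := Ej.filter (fun e => ¬ (p : ℤ) ∣ (spec e (derivative h)).eval (n e)) with hEp
  have hEpsub : Ep ⊆ Ej := Finset.filter_subset _ _
  have hcount : p * D * M < Ep.card := by
    by_contra hcon
    push Not at hcon
    have h1 : Ep.card ≤ P2 * D * M := hcon.trans (by
      have := hP2 p hp
      gcongr)
    have h2 : E.card ≤ D + D * Ej.card := hjc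
    have h3 : D * Ej.card ≤ D * (2 * (P2 * D * M)) := by
      have h3' : Ej.card ≤ 2 * Ep.card := hpc
      exact Nat.mul_le_mul_left _ (by omega)
    have h4 : D * (2 * (P2 * D * M)) = 2 * D * (P2 * D * M) := by ring
    omega
  have hpp := hPP p hp
  have hdegh : h.natDegree ≤ D := by
    rw [hh]
    exact (natDegree_iterate_derivative _ _).trans
      ((Nat.sub_le _ _).trans (bip_natDegree_lt hD c).le)
  obtain ⟨CC, hCC, hCCM, hcl⟩ := exists_class p hpp h D hdegh Ep n
    (fun e he => (Finset.mem_filter.1 (hEpsub he)).2.1)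
    (fun e he => (Finset.mem_filter.1 he).2) M hcount
  have hCE : ∀ e ∈ CC, e ∈ E := fun e he => hEjsub (hEpsub (hCC he))
  have hR1 : ∀ e ∈ CC, ∀ e' ∈ CC, |e - e'| ≤ (Y : ℤ) := by
    intro e he e' he'
    obtain ⟨h1, h2⟩ := hE e (hCE e he)
    obtain ⟨h3, h4⟩ := hE e' (hCE e' he')
    rw [abs_le]; constructor <;> linarith
  have hR2 : ∀ e ∈ CC, ∀ e' ∈ CC, |n e - n e'| ≤ (2 * Y : ℤ) := by
    intro e he e' he'
    obtain ⟨h1, h2⟩ := hn e (hCE e he)
    obtain ⟨h3, h4⟩ := hn e' (hCE e' he')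
    rw [abs_le]; constructor <;> linarith
  -- collinearity
  have hdet : ∀ e0 ∈ CC, ∀ e1 ∈ CC, ∀ e2 ∈ CC,
      (e1 - e0) * (n e2 - n e0) = (e2 - e0) * (n e1 - n e0) := by
    intro e0 he0 e1 he1 e2 he2
    have hd := det_dvd h p hpp e0 (n e0) e1 (n e1) e2 (n e2)
      (Finset.mem_filter.1 (hEpsub (hCC he0))).2.1
      (Finset.mem_filter.1 (hEpsub (hCC he1))).2.1
      (Finset.mem_filter.1 (hEpsub (hCC he2))).2.1
      (Finset.mem_filter.1 (hCC he0)).2
      (hcl e1 he1 e0 he0).1 (hcl e1 he1 e0 he0).2 (hcl e2 he2 e0 he0).1 (hcl e2 he2 e0 he0).2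
    have habs : |(e1 - e0) * (n e2 - n e0) - (e2 - e0) * (n e1 - n e0)| ≤ 4 * (Y : ℤ) ^ 2 := by
      have h1 : |(e1 - e0) * (n e2 - n e0)| ≤ (Y : ℤ) * (2 * Y) := by
        rw [abs_mul]
        exact mul_le_mul (hR1 _ he1 _ he0) (hR2 _ he2 _ he0) (abs_nonneg _) (by positivity)
      have h2 : |(e2 - e0) * (n e1 - n e0)| ≤ (Y : ℤ) * (2 * Y) := by
        rw [abs_mul]
        exact mul_le_mul (hR1 _ he2 _ he0) (hR2 _ he1 _ he0) (abs_nonneg _) (by positivity)
      calc |(e1 - e0) * (n e2 - n e0) - (e2 - e0) * (n e1 - n e0)|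
          ≤ |(e1 - e0) * (n e2 - n e0)| + |(e2 - e0) * (n e1 - n e0)| := abs_sub _ _
        _ ≤ 4 * (Y : ℤ) ^ 2 := by nlinarith
    have hlt : |(e1 - e0) * (n e2 - n e0) - (e2 - e0) * (n e1 - n e0)| < (p : ℤ) ^ 3 := by
      calc _ ≤ 4 * (Y : ℤ) ^ 2 := habs
        _ < (P1 : ℤ) ^ 3 := by exact_mod_cast hPY
        _ ≤ (p : ℤ) ^ 3 := by
            have := hP1 p hp
            gcongr
    have := Int.eq_zero_of_abs_lt_dvd hd hlt
    linarith
  obtain ⟨V, S, U, hV, hcop, hline, hVb, hSb⟩ := line p hpp.pos CC n M hCCM hM hcl hdet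
    (Y : ℤ) (2 * Y : ℤ) hR1 hR2
  have hP1p : (P1 : ℤ) ≤ p := by exact_mod_cast hP1 p hp
  refine ⟨V, S, U, hV, hcop, ?_, ?_, ?_⟩
  · refine le_trans ?_ hVb
    have : (0 : ℤ) ≤ V := by omega
    gcongr
  · refine le_trans ?_ (hSb.trans (by linarith))
    gcongr
  -- the larger sieve
  set bad0 : ℤ → ℕ → Prop := fun e g => bad e g ∧ ¬ (g : ℤ) ∣ V * a g - U with hbad0
  set C1 := CC.filter (fun e => ¬ ((GG.filter (fun g => bad e g)).card ≤
          2 * (GG.filter (fun g => bad e g ∧ (g : ℤ) ∣ V * a g - U)).card)) with hC1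
  set C2 := CC.filter (fun e => ((GG.filter (fun g => bad e g)).card ≤
          2 * (GG.filter (fun g => bad e g ∧ (g : ℤ) ∣ V * a g - U)).card)) with hC2
  have hC12 : C2.card + C1.card = CC.card := Finset.card_filter_add_card_filter_not _
  refine ⟨C2, fun e he => hCE e (Finset.mem_filter.1 he).1, ?_, fun e he =>
    ⟨hline e (Finset.mem_filter.1 he).1, (Finset.mem_filter.1 he).2⟩⟩
  by_contra hcon
  push Not at hcon
  have hC1M : M < 2 * C1.card := by omega
  set K' := (K + 1) / 2 with hK'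
  have hK2 : K ≤ 2 * K' := by omega
  have hls := larger_sieve C1 GG hGG G1 B W K' hGl hG1 (Y : ℤ)
    (fun e he e' he' => hR1 e (Finset.mem_filter.1 he).1 e' (Finset.mem_filter.1 he').1)
    (by exact_mod_cast hW) bad0
    (by
      intro e he
      have h1 := (Finset.mem_filter.1 he).2
      have h2 : (GG.filter (fun g => bad e g ∧ (g : ℤ) ∣ V * a g - U)).card
          + (GG.filter (fun g => bad0 e g)).card = (GG.filter (fun g => bad e g)).card := by
        have h3 := Finset.card_filter_add_card_filter_not (s := GG.filter (fun g => bad e g))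
          (fun g : ℕ => (g : ℤ) ∣ V * a g - U)
        rw [Finset.filter_filter, Finset.filter_filter] at h3
        exact h3
      have h4 := hbad e (hCE e (Finset.mem_filter.1 he).1)
      omega)
    (fun g => (R g).image (fun r => ((V * a g - U : ℤ) : ZMod g) * (((V : ℤ) : ZMod g) * r + ((S : ℤ) : ZMod g))⁻¹))
    ((Finset.sum_le_sum (fun g _ => Finset.card_image_le)).trans hR)
    (by
      intro e he g hg hb
      obtain ⟨hb1, hb2⟩ := hb
      have heC := (Finset.mem_filter.1 he).1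
      obtain ⟨r, hr, hreq⟩ := hbadR e (hCE e heC) g hg hb1
      rw [Finset.mem_image]
      refine ⟨r, hr, ?_⟩
      have : Fact g.Prime := ⟨hGG g hg⟩
      have h1 : ((V * a g - U : ℤ) : ZMod g) ≠ 0 := by
        rw [Ne, ZMod.intCast_zmod_eq_zero_iff_dvd]; exact hb2
      have h2 : ((V * a g - U : ℤ) : ZMod g) = (((V : ℤ) : ZMod g) * r + ((S : ℤ) : ZMod g)) * (e : ZMod g) := by
        have h3 : (V * a g - U : ℤ) = V * (a g - n e) + S * e := by
          have := hline e heC
          linear_combination this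
        rw [h3]
        push_cast
        push_cast at hreq
        rw [hreq]
        ring
      have h4 : (((V : ℤ) : ZMod g) * r + ((S : ℤ) : ZMod g)) ≠ 0 := by
        intro h0
        rw [h0, zero_mul] at h2
        exact h1 h2
      rw [h2]
      field_simp)
  exact numeric K K' GG.card B W M C1.card hK2 hls hC1M N5

end Crest.Agent.R1.ST
end

-- ▼ part R1/ST6

/-!
R1, structure theorem (ST), part 6: choice of parameters.
-/

namespace Crest.Agent.R1.ST

open Finset Real

/-- many primes in dyadic intervals (weak form). -/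
lemma many_primes : ∃ x0 : ℝ, 1 ≤ x0 ∧ ∀ P : ℕ, x0 ≤ P →
    Real.sqrt P ≤ (((Finset.Icc P (2 * P)).filter Nat.Prime).card : ℝ) := by
  obtain ⟨Y, hY1, hY⟩ := Crest.Agent.Lib.PNT.abs_primeCounting_sub_le (show (0:ℝ) < 1/8 by norm_num)
  -- log y ≤ 4 y^{1/4}
  refine ⟨max Y (10 ^ 8), le_max_of_le_left hY1.le, fun P hP => ?_⟩
  have hPY : Y ≤ P := (le_max_left _ _).trans hP
  have hP8 : (10:ℝ) ^ 8 ≤ P := (le_max_right _ _).trans hP
  have hP0 : (0:ℝ) < P := by linarith [show (0:ℝ) < 10 ^ 8 by norm_num]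
  have h1 := abs_le.1 (hY P hPY)
  have h2 := abs_le.1 (hY (2 * P) (by linarith))
  have hl : 0 < Real.log P := Real.log_pos (by linarith [show (1:ℝ) < 10 ^ 8 by norm_num])
  have hlog2 : Real.log (2 * P) = Real.log 2 + Real.log P := Real.log_mul (by norm_num) hP0.ne'
  have hl2 : Real.log 2 ≤ Real.log P / 8 := by
    have h3 : Real.log ((2:ℝ) ^ 8) ≤ Real.log P := Real.log_le_log (by norm_num) (by linarith [show (2:ℝ)^8 ≤ 10^8 by norm_num])
    rw [Real.log_pow] at h3
    push_cast at h3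
    linarith
  have hfl1 : ⌊(P:ℝ)⌋₊ = P := Nat.floor_natCast P
  have hfl2 : ⌊(2 * P:ℝ)⌋₊ = 2 * P := by
    have : (2 * P : ℝ) = ((2 * P : ℕ) : ℝ) := by push_cast; ring
    rw [this, Nat.floor_natCast]
  rw [hfl1] at h1
  rw [hfl2] at h2
  -- count
  have hcard : (Nat.primeCounting (2 * P) : ℝ) - Nat.primeCounting P ≤
      (((Finset.Icc P (2 * P)).filter Nat.Prime).card : ℝ) := by
    have h3 : Nat.primeCounting (2 * P) ≤ Nat.primeCounting P + ((Finset.Icc P (2 * P)).filter Nat.Prime).card := by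
      unfold Nat.primeCounting Nat.primeCounting'
      rw [Nat.count_eq_card_filter_range, Nat.count_eq_card_filter_range]
      have h4 : (Finset.range (2 * P + 1)).filter Nat.Prime ⊆
          (Finset.range (P + 1)).filter Nat.Prime ∪ (Finset.Icc P (2 * P)).filter Nat.Prime := by
        intro x hx
        rw [Finset.mem_filter, Finset.mem_range] at hx
        rw [Finset.mem_union, Finset.mem_filter, Finset.mem_filter, Finset.mem_range, Finset.mem_Icc]
        by_cases hxP : x < P + 1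
        · exact Or.inl ⟨hxP, hx.2⟩
        · exact Or.inr ⟨⟨by omega, by omega⟩, hx.2⟩
      exact (Finset.card_le_card h4).trans (Finset.card_union_le _ _)
    have h5 : (Nat.primeCounting (2 * P) : ℝ) ≤ Nat.primeCounting P + ((Finset.Icc P (2 * P)).filter Nat.Prime).card := by
      exact_mod_cast h3
    linarith
  refine le_trans ?_ hcard
  set A : ℝ := P / Real.log P with hA
  have hA0 : 0 < A := by positivity
  have h2' : (7/8) * ((2 * P) / Real.log (2 * P)) ≤ Nat.primeCounting (2 * P) := by linarith [h2.1]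
  have h1' : (Nat.primeCounting P : ℝ) ≤ (9/8) * A := by linarith [h1.2]
  have h6 : (16/9) * A ≤ (2 * P) / Real.log (2 * P) := by
    rw [hA, le_div_iff₀ (by rw [hlog2]; linarith [Real.log_pos (show (1:ℝ) < 2 by norm_num)])]
    rw [hlog2]
    have : 16 / 9 * (P / Real.log P) * (Real.log 2 + Real.log P) ≤ 16/9 * (P / Real.log P) * (Real.log P / 8 + Real.log P) := by
      gcongr
    refine this.trans (le_of_eq ?_)
    field_simp
    ring
  have h7 : A / 4 ≤ (Nat.primeCounting (2 * P) : ℝ) - Nat.primeCounting P := by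
    nlinarith
  refine le_trans ?_ h7
  -- sqrt P ≤ P / (4 log P)
  have h8 : Real.log P ≤ Real.sqrt P / 4 := by
    have h9 : Real.log (P ^ ((1:ℝ)/4)) ≤ (P:ℝ) ^ ((1:ℝ)/4) := by
      have := Real.log_le_sub_one_of_pos (show 0 < (P:ℝ) ^ ((1:ℝ)/4) by positivity)
      linarith
    rw [Real.log_rpow hP0] at h9
    have h10 : (100:ℝ) ≤ (P:ℝ) ^ ((1:ℝ)/4) := by
      have h11 : ((10:ℝ) ^ 8) ^ ((1:ℝ)/4) = 100 := by
        rw [← Real.rpow_natCast, ← Real.rpow_mul (by norm_num)]
        norm_num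
      rw [← h11]
      exact Real.rpow_le_rpow (by norm_num) hP8 (by norm_num)
    have h12 : Real.sqrt P = (P:ℝ) ^ ((1:ℝ)/4) * (P:ℝ) ^ ((1:ℝ)/4) := by
      rw [Real.sqrt_eq_rpow, ← Real.rpow_add hP0]; norm_num
    rw [h12]
    nlinarith
  have hs : 0 < Real.sqrt P := Real.sqrt_pos.2 hP0
  have h13 : (P:ℝ) = Real.sqrt P * Real.sqrt P := (Real.mul_self_sqrt hP0.le).symm
  rw [hA, div_div, le_div_iff₀ (by positivity)]
  calc Real.sqrt P * (Real.log P * 4) ≤ Real.sqrt P * (Real.sqrt P / 4 * 4) := by gcongr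
    _ = Real.sqrt P * Real.sqrt P := by ring
    _ = P := h13.symm

end Crest.Agent.R1.ST
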