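import Crest.Agent.R1.ST7

/-!
R1, structure theorem (ST), part 8: unstructured bad pairs are few; the list of rationals is short.
-/

namespace Crest.Agent.R1.ST

open Finset Real

/-- `(V, U)` represents a rational number of height `(Z1, Z2)` which agrees with `a` modulo at
least `k` of the primes of `GG`. -/
def Rho (a : ℤ) (Z1 Z2 : ℝ) (GG : Finset ℕ) (k : ℕ) (V U : ℤ) : Prop :=
  1 ≤ V ∧ (V : ℝ) ≤ Z1 ∧ |(U : ℝ)| ≤ Z2 ∧
    k ≤ (GG.filter (fun g : ℕ => (g : ℤ) ∣ V * a - U)).card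



/-- two representations which agree modulo many common primes represent the same rational. -/
lemma ratio_eq (a : ℤ) (Z1 Z2 : ℝ) (GG : Finset ℕ) (hGG : ∀ g ∈ GG, g.Prime) (G W k : ℕ)
    (hG : ∀ g ∈ GG, G ≤ g) (hG1 : 1 ≤ G) (hZ1 : 0 ≤ Z1) (hZ2 : 0 ≤ Z2)
    (hW : 2 * Z1 * Z2 < (G : ℝ) ^ (W + 1)) (V U V' U' : ℤ)
    (h : Rho a Z1 Z2 GG k V U) (h' : Rho a Z1 Z2 GG k V' U')
    (hc : W < (GG.filter (fun g : ℕ => (g : ℤ) ∣ V * a - U ∧ (g : ℤ) ∣ V' * a - U')).card) :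
    V' * U = V * U' := by
  by_contra hne
  have h0 : V' * U - V * U' ≠ 0 := sub_ne_zero.mpr hne
  have h1 : (GG.filter (fun g : ℕ => (g : ℤ) ∣ V' * U - V * U')).card ≤ W := by
    refine card_dvd_le GG hGG G hG hG1 _ h0 W ?_
    have h2 : (|V' * U - V * U'| : ℝ) < (G : ℝ) ^ (W + 1) := by
      have e1 : |(V' : ℝ)| ≤ Z1 := by
        rw [abs_of_pos (by exact_mod_cast (by linarith [h'.1] : 0 < V'))]; exact h'.2.1
      have e2 : |(V : ℝ)| ≤ Z1 := by
        rw [abs_of_pos (by exact_mod_cast (by linarith [h.1] : 0 < V))]; exact h.2.1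
      calc |(V':ℝ) * U - V * U'| ≤ |(V':ℝ) * U| + |(V:ℝ) * U'| := abs_sub _ _
        _ = |(V':ℝ)| * |(U:ℝ)| + |(V:ℝ)| * |(U':ℝ)| := by rw [abs_mul, abs_mul]
        _ ≤ Z1 * Z2 + Z1 * Z2 := by
            gcongr
            · exact h.2.2.1
            · exact h'.2.2.1
        _ = 2 * Z1 * Z2 := by ring
        _ < _ := hW
    exact_mod_cast h2
  have h2 : (GG.filter (fun g : ℕ => (g : ℤ) ∣ V * a - U ∧ (g : ℤ) ∣ V' * a - U')).card ≤
      (GG.filter (fun g : ℕ => (g : ℤ) ∣ V' * U - V * U')).card := by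
    refine Finset.card_le_card (fun g hg => ?_)
    rw [Finset.mem_filter] at hg ⊢
    refine ⟨hg.1, ?_⟩
    obtain ⟨x, hx⟩ := hg.2.1
    obtain ⟨y, hy⟩ := hg.2.2
    exact ⟨V * y - V' * x, by linear_combination V * hy - V' * hx⟩
  omega

/-- **The list is short**: at most `2 |GG| / k` different rationals. -/
theorem list_card (a : ℤ) (Z1 Z2 : ℝ) (GG : Finset ℕ) (hGG : ∀ g ∈ GG, g.Prime) (G W k : ℕ)
    (hG : ∀ g ∈ GG, G ≤ g) (hG1 : 1 ≤ G) (hZ1 : 0 ≤ Z1) (hZ2 : 0 ≤ Z2)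
    (hW : 2 * Z1 * Z2 < (G : ℝ) ^ (W + 1)) (hk : 2 * GG.card * W ≤ k ^ 2)
    (T : Finset (ℤ × ℤ)) (hT : ∀ τ ∈ T, Rho a Z1 Z2 GG k τ.1 τ.2)
    (hT2 : ∀ τ ∈ T, ∀ τ' ∈ T, τ ≠ τ' → τ'.1 * τ.2 ≠ τ.1 * τ'.2) :
    T.card * k ≤ 2 * GG.card := by
  classical
  by_contra hcon
  push Not at hcon
  let Sf : ℤ × ℤ → Finset ℕ := fun τ => GG.filter (fun g : ℕ => (g : ℤ) ∣ τ.1 * a - τ.2)
  set s := ∑ τ ∈ T, (Sf τ).card with hs
  have hs1 : T.card * k ≤ s := by
    rw [hs]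
    calc T.card * k = ∑ _τ ∈ T, k := by rw [Finset.sum_const, smul_eq_mul]
      _ ≤ _ := Finset.sum_le_sum (fun τ hτ => (hT τ hτ).2.2.2)
  have hs2 : s = ∑ g ∈ GG, (T.filter (fun τ : ℤ × ℤ => (g : ℤ) ∣ τ.1 * a - τ.2)).card := by
    rw [hs]
    simp only [Sf, Finset.card_filter]
    exact Finset.sum_comm
  have hs3 : s ^ 2 ≤ GG.card *
      ∑ g ∈ GG, (T.filter (fun τ : ℤ × ℤ => (g : ℤ) ∣ τ.1 * a - τ.2)).card ^ 2 := by
    rw [hs2]; exact sq_sum_le_card_mul_sum_sq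
  have hs4 : ∑ g ∈ GG, (T.filter (fun τ : ℤ × ℤ => (g : ℤ) ∣ τ.1 * a - τ.2)).card ^ 2
      = ∑ q ∈ T ×ˢ T, (GG.filter (fun g : ℕ => (g : ℤ) ∣ q.1.1 * a - q.1.2 ∧
          (g : ℤ) ∣ q.2.1 * a - q.2.2)).card := by
    have e1 : ∀ g ∈ GG, (T.filter (fun τ : ℤ × ℤ => (g : ℤ) ∣ τ.1 * a - τ.2)).card ^ 2
        = ((T ×ˢ T).filter (fun q : (ℤ × ℤ) × (ℤ × ℤ) => (g : ℤ) ∣ q.1.1 * a - q.1.2 ∧
          (g : ℤ) ∣ q.2.1 * a - q.2.2)).card := by
      intro g _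
      rw [pow_two, ← Finset.card_product]
      congr 1
      ext q
      simp only [Finset.mem_product, Finset.mem_filter]
      tauto
    rw [Finset.sum_congr rfl e1]
    simp only [Finset.card_filter]
    exact Finset.sum_comm
  have hs5 : ∑ q ∈ T ×ˢ T, (GG.filter (fun g : ℕ => (g : ℤ) ∣ q.1.1 * a - q.1.2 ∧
          (g : ℤ) ∣ q.2.1 * a - q.2.2)).card ≤ s + T.card ^ 2 * W := by
    calc _ ≤ ∑ q ∈ T ×ˢ T, (W + if q.1 = q.2 then (Sf q.1).card else 0) := by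
          refine Finset.sum_le_sum (fun q hq => ?_)
          obtain ⟨hq1, hq2⟩ := Finset.mem_product.1 hq
          split_ifs with h
          · refine (Finset.card_le_card (fun g hg => ?_)).trans (Nat.le_add_left _ _)
            rw [Finset.mem_filter] at hg
            exact Finset.mem_filter.2 ⟨hg.1, hg.2.1⟩
          · rw [add_zero]
            by_contra hlt
            push Not at hlt
            have := ratio_eq a Z1 Z2 GG hGG G W k hG hG1 hZ1 hZ2 hW q.1.1 q.1.2 q.2.1 q.2.2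
              (hT _ hq1) (hT _ hq2) hlt
            exact hT2 _ hq1 _ hq2 h this
      _ = s + T.card ^ 2 * W := by
          rw [Finset.sum_add_distrib, Finset.sum_const, Finset.card_product, smul_eq_mul,
            Finset.sum_product]
          have e1 : ∀ x ∈ T, ∑ y ∈ T, (if (x, y).1 = (x, y).2 then (Sf (x, y).1).card else 0)
              = (Sf x).card := by
            intro x hx
            simp only
            rw [Finset.sum_ite_eq]
            simp [hx]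
          rw [Finset.sum_congr rfl e1, ← hs]
          ring
  have hs6 : s ^ 2 ≤ GG.card * (s + T.card ^ 2 * W) := by
    rw [hs4] at hs3
    exact hs3.trans (Nat.mul_le_mul_left _ hs5)
  have hs7 : 2 * GG.card < s := lt_of_lt_of_le hcon hs1
  have hspos : 0 < s := by omega
  have hs8 : 2 * (GG.card * s) < s * s := by
    calc 2 * (GG.card * s) = (2 * GG.card) * s := by ring
      _ < s * s := Nat.mul_lt_mul_of_pos_right hs7 hspos
  have hs9 : (T.card * k) ^ 2 ≤ s ^ 2 := Nat.pow_le_pow_left hs1 2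
  have hs10 : T.card ^ 2 * (2 * GG.card * W) ≤ T.card ^ 2 * k ^ 2 := Nat.mul_le_mul_left _ hk
  nlinarith

end Crest.Agent.R1.ST
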