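import Crest.Agent.R1.ST8

/-!
R1, structure theorem (ST), part 9: the list form.
-/

namespace Crest.Agent.R1.ST

open Finset Real

lemma coprime_ratio_eq {U V U' V' : ℤ} (hV : 1 ≤ V) (hV' : 1 ≤ V') (h : IsCoprime U V)
    (h' : IsCoprime U' V') (he : V' * U = V * U') : V = V' ∧ U = U' := by
  have h1 : V ∣ V' := by
    have : V ∣ U * V' := ⟨U', by rw [mul_comm, he]⟩
    exact h.symm.dvd_of_dvd_mul_left this
  have h2 : V' ∣ V := by
    have : V' ∣ U' * V := ⟨U, by rw [mul_comm, ← he]⟩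
    exact h'.symm.dvd_of_dvd_mul_left this
  have h3 : V = V' := Int.dvd_antisymm (by omega) (by omega) h1 h2
  refine ⟨h3, ?_⟩
  subst h3
  exact mul_left_cancel₀ (by omega) he


end Crest.Agent.R1.ST
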